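import Vale.Agent.P166.Haar2.SiteTaylor.Rec
import Vale.Agent.P166.Haar2.Statements
import Vale.Agent.P157.Full.Deriv
import Vale.Agent.P166.Haar2.CascValue.Eig

/-!
The site part to first order, uniformly in the number of levels.
-/

noncomputable section

open MeasureTheory ProbabilityTheory
open scoped BigOperators

namespace Vale.Agent.P166.Haar2

open Vale.Agent.P157.Parisi (weight siteValue)
open Vale.Agent.P157.Parisi.Full (IsFieldPath siteSlope siteDeriv_spec)
open Vale.Agent.P157.Parisi.Full.Concave (siteSlope_anti concave_spec weight_nonneg)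
open SiteTaylor

theorem siteTaylor : SiteTaylorStmt := by
  intro S
  refine ⟨slopeConst, fun r m ρ Δ hρ hΔ _ hΔ1 κ hκ => ?_⟩
  obtain ⟨hκ0, hκ1⟩ := hκ
  set ρ' : Fin (r + 1) → ℝ := fun p => ρ p + κ * Δ p with hρ'd
  have hρ' : IsFieldPath m ρ' := ⟨hρ.pos, hρ.lt_one, hρ.strictMono,
    fun i j h => add_le_add (hρ.mono h) (mul_le_mul_of_nonneg_left (hΔ.mono h) hκ0),
    add_nonneg hρ.nonneg (mul_nonneg hκ0 hΔ.nonneg)⟩
  have hΔp : ∀ p, 0 ≤ Δ p ∧ Δ p ≤ 1 := fun p =>
    ⟨hΔ.nonneg.trans (hΔ.mono (Fin.zero_le p)), (hΔ.mono (Fin.le_last p)).trans hΔ1⟩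
  have hC : 0 ≤ slopeConst :=
    mul_nonneg (mul_nonneg (by norm_num) stepConst_nonneg) (Real.exp_pos _).le
  have hw : ∀ p, 0 ≤ weight m p := weight_nonneg hρ
  have hslope : ∀ p, siteSlope m ρ' p ≤ siteSlope m ρ p + slopeConst * Real.sqrt κ := by
    intro p
    set e := κ * Δ p with he_def
    have he : 0 ≤ e := mul_nonneg hκ0 (hΔp p).1
    have heκ : e ≤ κ := mul_le_of_le_one_right hκ0 (hΔp p).2
    set w : Fin (r + 1) → ℝ := fun i => ρ i + if p ≤ i then e else 0 with hwd
    have hwP : IsFieldPath m w := ⟨hρ.pos, hρ.lt_one, hρ.strictMono, fun i j h => by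
      refine add_le_add (hρ.mono h) ?_
      split_ifs with h1 h2
      exacts [le_rfl, absurd (h1.trans h) h2, he, le_rfl],
      add_nonneg hρ.nonneg (by split_ifs <;> simp [he])⟩
    refine le_trans ?_ ((slope_raise_le hρ p he (heκ.trans hκ1) fun i => rfl).trans
      (add_le_add le_rfl (mul_le_mul_of_nonneg_left (Real.sqrt_le_sqrt heκ) hC)))
    refine siteSlope_anti hwP hρ' (fun i => ?_) p (by simp [hwd, hρ'd, he_def])
    refine add_le_add le_rfl ?_
    split_ifs with h1
    exacts [mul_le_mul_of_nonneg_left (hΔ.mono h1) hκ0, mul_nonneg hκ0 (hΔp i).1]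
  have up := concave_spec siteDeriv_spec r m ρ ρ' hρ hρ'
  have dn := concave_spec siteDeriv_spec r m ρ' ρ hρ' hρ
  have e1 : ∑ p, weight m p * siteSlope m ρ p * (ρ' p - ρ p) =
      κ * ∑ p, weight m p * siteSlope m ρ p * Δ p := by
    rw [Finset.mul_sum]
    exact Finset.sum_congr rfl fun p _ => by simp only [hρ'd]; ring
  have e2 : ∑ p, weight m p * siteSlope m ρ' p * (ρ p - ρ' p) =
      -κ * ∑ p, weight m p * siteSlope m ρ' p * Δ p := by
    rw [Finset.mul_sum]
    exact Finset.sum_congr rfl fun p _ => by simp only [hρ'd]; ring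
  rw [e1] at up
  rw [e2] at dn
  have hsum : (∑ p, weight m p * siteSlope m ρ' p * Δ p) ≤
      (∑ p, weight m p * siteSlope m ρ p * Δ p) + slopeConst * Real.sqrt κ := by
    have h1 : ∑ p, weight m p * (slopeConst * Real.sqrt κ) = slopeConst * Real.sqrt κ := by
      simp only [CascValue.sum_weight_mul, CascValue.inc, sub_self, mul_zero, Finset.sum_const_zero,
        sub_zero]
    rw [← h1, ← Finset.sum_add_distrib]
    refine Finset.sum_le_sum fun p _ => ?_
    have h2 := mul_le_mul_of_nonneg_left (hslope p) (mul_nonneg (hw p) (hΔp p).1)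
    have h3 : weight m p * (slopeConst * Real.sqrt κ) * Δ p ≤
        weight m p * (slopeConst * Real.sqrt κ) :=
      mul_le_of_le_one_right (mul_nonneg (hw p) (mul_nonneg hC (Real.sqrt_nonneg κ))) (hΔp p).2
    linarith
  have hrem : 0 ≤ slopeConst * κ * Real.sqrt κ :=
    mul_nonneg (mul_nonneg hC hκ0) (Real.sqrt_nonneg κ)
  have h4 := mul_le_mul_of_nonneg_left hsum hκ0
  rw [abs_le]
  constructor <;> linarith

end Vale.Agent.P166.Haar2
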