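import Vale.Agent.P166.Haar2.SiteTaylor.Step
import Vale.Agent.P157.Full.Concave.Main
import Vale.Agent.P157.Full.Lip

/-!
Raising a field path from one level on changes the conjugate at that level by the square root.
-/

noncomputable section

open MeasureTheory ProbabilityTheory
open scoped BigOperators

namespace Vale.Agent.P166.Haar2.SiteTaylor

open Vale.Agent.P157.Parisi (layer tilt level down weight)
open Vale.Agent.P157.Parisi.Up (Lip1)
open Vale.Agent.P157.Parisi.Full (logCosh siteSlope IsFieldPath)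
open Vale.Agent.P157.Parisi.Full.Concave

lemma level_congr_gaps : ∀ {r : ℕ} (m : Fin r → ℝ) (ρ ρ' : Fin (r + 1) → ℝ) (p : Fin (r + 1)),
    (∀ i : Fin r, p.val ≤ i.val → ρ' i.succ - ρ' i.castSucc = ρ i.succ - ρ i.castSucc) →
      level m ρ' logCosh p = level m ρ logCosh p := by
  intro r
  induction r with
  | zero => exact fun _ _ _ _ _ => rfl
  | succ r ih =>
    intro m ρ ρ' p h
    have ht : ∀ q : Fin (r + 1), (∀ i : Fin r, q.val ≤ i.val → p.val ≤ i.succ.val) →
        level (Fin.tail m) (Fin.tail ρ') logCosh q = level (Fin.tail m) (Fin.tail ρ) logCosh q :=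
      fun q hq => ih _ _ _ q fun i hi => by
        have := h i.succ (hq i hi)
        simpa [Fin.tail, Fin.castSucc_succ] using this
    cases p using Fin.cases with
    | zero =>
      have h0 := h 0 (Nat.zero_le _)
      simp only [Fin.castSucc_zero, Fin.succ_zero_eq_one] at h0
      show layer (m 0) (ρ' 1 - ρ' 0) (level (Fin.tail m) (Fin.tail ρ') logCosh 0) =
        layer (m 0) (ρ 1 - ρ 0) (level (Fin.tail m) (Fin.tail ρ) logCosh 0)
      rw [h0, ht 0 fun i _ => Nat.zero_le _]
    | succ p => exact ht p fun i hi => by simp only [Fin.val_succ]; omega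

lemma down_nonneg' : ∀ {r : ℕ} (m : Fin r → ℝ) (ρ : Fin (r + 1) → ℝ) (p : Fin (r + 1)) {h : ℝ → ℝ},
    (∀ y, 0 ≤ h y) → ∀ y, 0 ≤ down m ρ logCosh p h y := by
  intro r
  induction r with
  | zero => exact fun _ _ _ _ hh => hh
  | succ r ih =>
    intro m ρ p h hh
    cases p using Fin.cases with
    | zero => exact hh
    | succ p => exact tilt_nonneg (ih _ _ p hh)

/-- The weighted bound through all the levels above the raised one. -/
lemma rec_near {e : ℝ} (he : 0 ≤ e) (he1 : e ≤ 1) {h : ℝ → ℝ} (hh : B1 h) (hh0 : ∀ y, 0 ≤ h y)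
    (hlip : ∀ y z, h y ≤ h z + 2 * |y - z|) :
    ∀ {r : ℕ} {m : Fin r → ℝ}, (∀ i, 0 < m i) → (∀ i, m i ≤ 1) → Monotone m →
    ∀ (ρ ρ' : Fin (r + 1) → ℝ) (p : Fin (r + 1)), Monotone ρ →
    (∀ i : Fin r, ρ' i.succ - ρ' i.castSucc =
      ρ i.succ - ρ i.castSucc + if i.succ = p then e else 0) →
    (∀ x, |level m ρ' logCosh 0 x - level m ρ logCosh 0 x| ≤ stepConst * Real.sqrt e) ∧
      ∀ μ, 0 ≤ μ → μ ≤ 1 → (∀ i, μ ≤ m i) → ∀ x,
        Real.exp (μ * level m ρ' logCosh 0 x) * down m ρ' logCosh p h x ≤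
          Real.exp ((2 - μ) * (stepConst * Real.sqrt e)) *
            (Real.exp (μ * level m ρ logCosh 0 x) *
              (down m ρ logCosh p h x + 2 * stepConst * Real.sqrt e)) := by
  have hε : 0 ≤ stepConst * Real.sqrt e := mul_nonneg stepConst_nonneg (Real.sqrt_nonneg _)
  have base : ∀ μ L : ℝ, μ ≤ 1 → ∀ x, Real.exp (μ * L) * h x ≤
      Real.exp ((2 - μ) * (stepConst * Real.sqrt e)) *
        (Real.exp (μ * L) * (h x + 2 * stepConst * Real.sqrt e)) := fun μ L hμ x => by
    refine le_trans ?_ (le_mul_of_one_le_left (mul_nonneg (Real.exp_pos _).le (by linarith [hh0 x]))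
      (Real.one_le_exp (mul_nonneg (by linarith) hε)))
    exact mul_le_mul_of_nonneg_left (by linarith) (Real.exp_pos _).le
  intro r
  induction r with
  | zero =>
    intro m _ _ _ ρ ρ' p _ _
    exact ⟨fun x => by
      rw [show level m ρ' logCosh 0 = level m ρ logCosh 0 from rfl, sub_self, abs_zero]; exact hε,
      fun μ _ hμ1 _ x => base μ (level m ρ logCosh 0 x) hμ1 x⟩
  | succ r ih =>
    intro m hm hm1 hmono ρ ρ' p hρ hgap
    have gL1 : Lip1 (level (Fin.tail m) (Fin.tail ρ) logCosh 0) :=
      (good_level (fun i => hm i.succ) (Fin.tail ρ) 0).lip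
    have gL1' : Lip1 (level (Fin.tail m) (Fin.tail ρ') logCosh 0) :=
      (good_level (fun i => hm i.succ) (Fin.tail ρ') 0).lip
    cases p using Fin.cases with
    | zero =>
      have hl : level m ρ' logCosh 0 = level m ρ logCosh 0 := level_congr_gaps m ρ ρ' 0 fun i _ => by
        rw [hgap i, if_neg (Fin.succ_ne_zero i), add_zero]
      refine ⟨fun x => by rw [hl, sub_self, abs_zero]; exact hε, fun μ _ hμ1 _ x => ?_⟩
      rw [hl]
      exact base μ _ hμ1 x
    | succ p =>
      have h0 := hgap 0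
      simp only [Fin.castSucc_zero, Fin.succ_inj] at h0
      rw [Fin.succ_zero_eq_one] at h0
      have hδ : 0 ≤ ρ 1 - ρ 0 := sub_nonneg.2 (hρ (Fin.zero_le _))
      have hgt : ∀ i : Fin r, Fin.tail ρ' i.succ - Fin.tail ρ' i.castSucc =
          Fin.tail ρ i.succ - Fin.tail ρ i.castSucc + if i.succ = p then e else 0 := fun i => by
        have := hgap i.succ
        simpa [Fin.tail, Fin.castSucc_succ, Fin.succ_inj] using this
      have hbT : B1 (down (Fin.tail m) (Fin.tail ρ) logCosh p h) :=
        (down_mono_b1 (fun i => hm i.succ) _ p hh hh fun _ => le_rfl).1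
      have hT0 : ∀ y, 0 ≤ down (Fin.tail m) (Fin.tail ρ) logCosh p h y :=
        down_nonneg' _ _ p hh0
      -- the potential and the function entering the first level
      obtain ⟨F', T', hF', hT', hε', hW, eL, eT⟩ :
          ∃ F' T', Lip1 F' ∧ B1 T' ∧
            (∀ y, |F' y - level (Fin.tail m) (Fin.tail ρ) logCosh 0 y| ≤ stepConst * Real.sqrt e) ∧
            (∀ y, Real.exp (m 0 * F' y) * T' y ≤
              Real.exp ((2 - m 0) * (stepConst * Real.sqrt e)) *
                (Real.exp (m 0 * level (Fin.tail m) (Fin.tail ρ) logCosh 0 y) *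
                  (down (Fin.tail m) (Fin.tail ρ) logCosh p h y + 2 * stepConst * Real.sqrt e))) ∧
            (∀ x, level m ρ' logCosh 0 x = layer (m 0) (ρ 1 - ρ 0) F' x) ∧
            (∀ x, down m ρ' logCosh p.succ h x = tilt (m 0) (ρ 1 - ρ 0) F' T' x) := by
        rcases eq_or_ne p 0 with rfl | hp
        · rw [if_pos rfl] at h0
          have hl : level (Fin.tail m) (Fin.tail ρ') logCosh 0 =
              level (Fin.tail m) (Fin.tail ρ) logCosh 0 := level_congr_gaps _ _ _ 0 fun i _ => by
            rw [hgt i, if_neg (Fin.succ_ne_zero i), add_zero]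
          set F := level (Fin.tail m) (Fin.tail ρ) logCosh 0
          refine ⟨layer (m 0) e F, tilt (m 0) e F h,
            (good_layer (hm 0) (good_level (fun i => hm i.succ) _ 0)).lip,
            b1_tilt (hm 0).le gL1 hh, fun y => layer_near (hm 0) (hm1 0) gL1 he he1 y, fun y => ?_,
            fun x => ?_, fun x => ?_⟩
          · rw [Vale.Agent.P157.Parisi.down_zero]
            have h1 := tilt_small (L := 2) (hm 0).le (hm1 0) gL1 he he1 hh zero_le_two hlip y
            have h2 : Real.exp (m 0 * layer (m 0) e F y) ≤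
                Real.exp ((2 - m 0) * (stepConst * Real.sqrt e)) * Real.exp (m 0 * F y) := by
              rw [← Real.exp_add, Real.exp_le_exp]
              have h3 := mul_le_mul_of_nonneg_left
                (abs_le.1 (layer_near (hm 0) (hm1 0) gL1 he he1 y)).2 (hm 0).le
              have h4 := mul_le_mul_of_nonneg_right
                (show m 0 ≤ 2 - m 0 by linarith [hm1 0]) hε
              linarith
            refine (mul_le_mul h2 h1 (tilt_nonneg hh0 y)
              (mul_nonneg (Real.exp_pos _).le (Real.exp_pos _).le)).trans (le_of_eq ?_)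
            ring
          · show layer (m 0) (ρ' 1 - ρ' 0) (level (Fin.tail m) (Fin.tail ρ') logCosh 0) x = _
            rw [hl, h0, layer_add (hm 0).le (hm1 0) gL1 hδ he]
          · show tilt (m 0) (ρ' 1 - ρ' 0) (level (Fin.tail m) (Fin.tail ρ') logCosh 0)
              (down (Fin.tail m) (Fin.tail ρ') logCosh 0 h) x = _
            rw [hl, h0, Vale.Agent.P157.Parisi.down_zero, tilt_add (hm 0).le (hm1 0) gL1 hh hδ he]
        · rw [if_neg (Ne.symm hp), add_zero] at h0
          obtain ⟨iL, iW⟩ := ih (m := Fin.tail m) (fun i => hm i.succ) (fun i => hm1 i.succ)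
            (hmono.comp Fin.strictMono_succ.monotone) (Fin.tail ρ) (Fin.tail ρ') p
            (hρ.comp Fin.strictMono_succ.monotone) hgt
          refine ⟨_, down (Fin.tail m) (Fin.tail ρ') logCosh p h, gL1',
            (down_mono_b1 (fun i => hm i.succ) _ p hh hh fun _ => le_rfl).1, iL,
            fun y => iW (m 0) (hm 0).le (hm1 0) (fun i => hmono (Fin.zero_le _)) y,
            fun x => ?_, fun x => ?_⟩
          · show layer (m 0) (ρ' 1 - ρ' 0) _ x = _
            rw [h0]
          · show tilt (m 0) (ρ' 1 - ρ' 0) _ _ x = _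
            rw [h0]
      have key := fun μ (hμ : 0 ≤ μ) (hμm : μ ≤ m 0) x => step_near (c := 2 - m 0)
        (δ := ρ 1 - ρ 0) hμ hμm (hm 0) gL1 hF' hbT hT0
        (mul_nonneg (mul_nonneg zero_le_two stepConst_nonneg) (Real.sqrt_nonneg e)) hT' hε' hW x
      refine ⟨fun x => ?_, fun μ hμ _ hμm x => ?_⟩
      · rw [eL x]
        exact (key 0 le_rfl (hm 0).le x).1
      · have h := (key μ hμ (hμm 0) x).2
        rw [sub_add_cancel] at h
        rw [eL x, eT x]
        exact h

lemma magSq_lip {r : ℕ} {m : Fin r → ℝ} (hm : ∀ i, 0 < m i) (hm1 : ∀ i, m i < 1)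
    (ρ : Fin (r + 1) → ℝ) (p : Fin (r + 1)) (y z : ℝ) :
    magSq m ρ p y ≤ magSq m ρ p z + 2 * |y - z| := by
  have hc := Vale.Agent.P157.Parisi.Full.Lip.curv_logCosh.level hm hm1 ρ p
  set G := deriv (level m ρ logCosh p) with hG
  have h2 : ∀ w, |deriv G w| ≤ 1 := fun w => abs_le.2 ⟨by linarith [hc.lo w],
    by linarith [hc.hi w, sq_nonneg (G w)]⟩
  have hd : |G y - G z| ≤ 1 * |y - z| :=
    (Vale.Agent.P157.Parisi.Full.Lip.IsLip.mk hc.hd2 h2).dist_le z y
  show G y ^ 2 ≤ G z ^ 2 + 2 * |y - z|
  have h1 : |G y + G z| ≤ 2 :=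
    (abs_add_le _ _).trans (by linarith [hc.bound y, hc.bound z])
  have h3 : G y ^ 2 - G z ^ 2 ≤ |G y - G z| * |G y + G z| := by
    rw [← abs_mul]
    exact le_trans (le_of_eq (by ring)) (le_abs_self _)
  have h4 := mul_le_mul hd h1 (abs_nonneg _) (mul_nonneg zero_le_one (abs_nonneg _))
  linarith

/-- The constant of the bound on the conjugate. -/
def slopeConst : ℝ := 4 * stepConst * Real.exp (2 * stepConst)

/-- Raising the path by `e` from level `p` on raises the conjugate at `p` by at most `C √e`. -/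
lemma slope_raise_le {r : ℕ} {m : Fin r → ℝ} {ρ w : Fin (r + 1) → ℝ} (hρ : IsFieldPath m ρ)
    (p : Fin (r + 1)) {e : ℝ} (he : 0 ≤ e) (he1 : e ≤ 1)
    (hw : ∀ i, w i = ρ i + if p ≤ i then e else 0) :
    siteSlope m w p ≤ siteSlope m ρ p + slopeConst * Real.sqrt e := by
  set J := stepConst
  set h := magSq m ρ p with hhd
  have hh : B1 h := (evInc_magSq hρ.pos ρ p).b1
  have hgap : ∀ i : Fin r, w i.succ - w i.castSucc =
      ρ i.succ - ρ i.castSucc + if i.succ = p then e else 0 := fun i => by
    rw [hw, hw]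
    simp only [Fin.le_def, Fin.ext_iff, Fin.val_succ, Fin.val_castSucc]
    split_ifs <;> first | omega | ring
  have hmag : magSq m w p = h := by
    rw [hhd]
    unfold magSq
    rw [level_congr_gaps m ρ w p fun i hi => by
      rw [hgap i, if_neg (fun hc => by rw [← hc] at hi; simp at hi), add_zero]]
  have hs := Real.sqrt_nonneg e
  have hJ := stepConst_nonneg
  have hC : 2 * J * Real.sqrt e ≤ slopeConst * Real.sqrt e := by
    refine mul_le_mul_of_nonneg_right ?_ hs
    have := mul_le_mul_of_nonneg_left (Real.one_le_exp (mul_nonneg zero_le_two hJ))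
      (mul_nonneg (by norm_num : (0 : ℝ) ≤ 4) hJ)
    simp only [slopeConst]
    linarith
  have hLip := (good_logCosh).lip
  have hbd : B1 (down m ρ logCosh p h) :=
    (down_mono_b1 hρ.pos ρ p hh hh fun _ => le_rfl).1
  have hbd' : B1 (down m w logCosh p h) :=
    (down_mono_b1 hρ.pos w p hh hh fun _ => le_rfl).1
  have hint : ∀ {k : ℝ → ℝ}, B1 k → ∀ a : ℝ,
      Integrable (fun g => k (a * g)) (gaussianReal 0 1) := fun hk a =>
    (integrable_const (1 : ℝ)).mono' (hk.meas.comp (measurable_const_mul a)).aestronglyMeasurable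
      (ae_of_all _ fun g => hk.bound _)
  have eS : ∀ τ : Fin (r + 1) → ℝ, magSq m τ p = h →
      siteSlope m τ p = ∫ g, down m τ logCosh p h (Real.sqrt (τ 0) * g) ∂gaussianReal 0 1 :=
    fun τ hτ => by rw [← hτ]; rfl
  rw [eS w hmag, eS ρ rfl]
  rcases eq_or_ne p 0 with rfl | hp
  · have h0 : w 0 = ρ 0 + e := by rw [hw, if_pos le_rfl]
    simp only [Vale.Agent.P157.Parisi.down_zero, h0]
    have eT : ∀ (δ : ℝ) (k : ℝ → ℝ) (x : ℝ), tilt 0 δ logCosh k x =
        ∫ g, k (x + Real.sqrt δ * g) ∂gaussianReal 0 1 := fun δ k x => by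
      simp [tilt]
    have e1 : ∫ g, h (Real.sqrt (ρ 0 + e) * g) ∂gaussianReal 0 1 =
        ∫ g, tilt 0 e logCosh h (Real.sqrt (ρ 0) * g) ∂gaussianReal 0 1 := by
      have := tilt_add le_rfl zero_le_one hLip hh hρ.nonneg he 0
      simp only [tilt, zero_mul, Real.exp_zero, one_mul, zero_add, integral_const, probReal_univ,
        smul_eq_mul, mul_one, div_one] at this ⊢
      exact this
    rw [e1]
    refine (integral_mono (hint (b1_tilt le_rfl hLip hh) _)
      ((hint hh _).fun_add (integrable_const _)) fun g =>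
        tilt_small (L := 2) le_rfl zero_le_one hLip he he1 hh zero_le_two
          (magSq_lip hρ.pos hρ.lt_one ρ 0) _).trans ?_
    rw [integral_add (hint hh _) (integrable_const _), integral_const, probReal_univ, one_smul]
    linarith
  · have h0 : w 0 = ρ 0 := by
      rw [hw, if_neg (fun hc => hp (Fin.le_zero_iff'.1 hc)), add_zero]
    rw [h0]
    refine (integral_mono (hint hbd' _) ((hint hbd _).fun_add (integrable_const _)) fun g => ?_).trans
      (le_of_eq (by rw [integral_add (hint hbd _) (integrable_const _), integral_const,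
        probReal_univ, one_smul]))
    have hk := (rec_near he he1 hh (fun y => sq_nonneg _) (magSq_lip hρ.pos hρ.lt_one ρ p) hρ.pos
      (fun i => (hρ.lt_one i).le) hρ.strictMono.monotone ρ w p hρ.mono hgap).2 0 le_rfl zero_le_one
      (fun i => (hρ.pos i).le) (Real.sqrt (ρ 0) * g)
    simp only [zero_mul, Real.exp_zero, one_mul, sub_zero] at hk
    show down m w logCosh p h _ ≤ down m ρ logCosh p h _ + slopeConst * Real.sqrt e
    set T := down m ρ logCosh p h (Real.sqrt (ρ 0) * g)
    have hT1 : T ≤ 1 := (le_abs_self _).trans (hbd.bound _)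
    set E := Real.exp (2 * (J * Real.sqrt e))
    have hεJ : J * Real.sqrt e ≤ J := mul_le_of_le_one_right hJ (Real.sqrt_le_one.2 he1)
    have hE : E ≤ Real.exp (2 * J) := Real.exp_le_exp.2 (by linarith)
    have hE1 : E - 1 ≤ 2 * (J * Real.sqrt e) * E := by
      have h1 := mul_le_mul_of_nonneg_right (Real.add_one_le_exp (-(2 * (J * Real.sqrt e))))
        (Real.exp_pos (2 * (J * Real.sqrt e))).le
      rw [← Real.exp_add, neg_add_cancel, Real.exp_zero] at h1
      linarith
    have hE0 : 0 ≤ E - 1 := sub_nonneg.2 (Real.one_le_exp (by positivity))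
    have h2 := mul_le_mul_of_nonneg_left hT1 hE0
    have h3 := mul_le_mul_of_nonneg_left hE (mul_nonneg (mul_nonneg zero_le_two hJ) hs)
    have h4 : slopeConst * Real.sqrt e = 4 * J * Real.exp (2 * J) * Real.sqrt e := rfl
    linarith

end Vale.Agent.P166.Haar2.SiteTaylor
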