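import Vale.Agent.P157.Full.Concave.Order

/-!
One step of the site recursion with a small increment, and with a slightly moved potential.
-/

noncomputable section

open MeasureTheory ProbabilityTheory
open scoped BigOperators

namespace Vale.Agent.P166.Haar2.SiteTaylor

open Vale.Agent.P157.Parisi (layer tilt)
open Vale.Agent.P157.Parisi.Up (Lip1)
open Vale.Agent.P157.Parisi.Full.Concave

/-- The constant of the estimates. -/
def stepConst : ℝ :=
  (∫ g, Real.exp (2 * |g|) ∂gaussianReal 0 1) / ∫ g, Real.exp ((-1) * |g|) ∂gaussianReal 0 1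

lemma integrable_exp_abs (c : ℝ) : Integrable (fun g => Real.exp (c * |g|)) (gaussianReal 0 1) :=
  Vale.Agent.P157.Parisi.Site.integrable_exp_abs c

lemma abs_mul_exp_le (g : ℝ) : |g| * Real.exp |g| ≤ Real.exp (2 * |g|) := by
  rw [two_mul, Real.exp_add]
  exact mul_le_mul_of_nonneg_right
    (by linarith [Real.add_one_le_exp |g|]) (Real.exp_pos _).le

lemma integrable_abs_mul_exp :
    Integrable (fun g => |g| * Real.exp |g|) (gaussianReal 0 1) :=
  (integrable_exp_abs 2).mono' (by fun_prop) (ae_of_all _ fun g => by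
    rw [Real.norm_eq_abs, abs_of_nonneg (by positivity)]
    exact abs_mul_exp_le g)

lemma denom_pos : 0 < ∫ g, Real.exp ((-1) * |g|) ∂gaussianReal 0 1 :=
  integral_exp_pos (integrable_exp_abs _)

lemma denom_le_one : ∫ g, Real.exp ((-1) * |g|) ∂gaussianReal 0 1 ≤ 1 := by
  have := integral_mono (integrable_exp_abs (-1)) (integrable_const (1 : ℝ)) fun g =>
    Real.exp_le_one_iff.2 (by linarith [abs_nonneg g])
  simpa using this

lemma num_le_stepConst : ∫ g, Real.exp (2 * |g|) ∂gaussianReal 0 1 ≤ stepConst :=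
  le_div_self (integral_nonneg fun _ => (Real.exp_pos _).le) denom_pos denom_le_one

lemma stepConst_nonneg : 0 ≤ stepConst :=
  div_nonneg (integral_nonneg fun _ => (Real.exp_pos _).le) denom_pos.le

lemma exp_abs_le {a : ℝ} (ha : 0 ≤ a) (ha1 : a ≤ 1) :
    ∫ g, Real.exp (a * |g|) ∂gaussianReal 0 1 ≤ Real.exp (a * stepConst) := by
  have h := integral_mono (integrable_exp_abs a)
    ((integrable_const (1 : ℝ)).fun_add (integrable_abs_mul_exp.const_mul a)) fun g => by
      have h1 := Real.add_one_le_exp (-(a * |g|))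
      have h2 := mul_le_mul_of_nonneg_right h1 (Real.exp_pos (a * |g|)).le
      rw [← Real.exp_add, neg_add_cancel, Real.exp_zero] at h2
      have h3 : Real.exp (a * |g|) ≤ Real.exp |g| :=
        Real.exp_le_exp.2 (mul_le_of_le_one_left (abs_nonneg g) ha1)
      have h4 := mul_le_mul_of_nonneg_left h3 (mul_nonneg ha (abs_nonneg g))
      show Real.exp (a * |g|) ≤ 1 + a * (|g| * Real.exp |g|)
      linarith
  rw [integral_add (integrable_const _) (integrable_abs_mul_exp.const_mul a), integral_const,
    probReal_univ, one_smul, integral_const_mul] at h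
  have h5 : ∫ g, |g| * Real.exp |g| ∂gaussianReal 0 1 ≤ stepConst :=
    (integral_mono integrable_abs_mul_exp (integrable_exp_abs 2) abs_mul_exp_le).trans
      num_le_stepConst
  have := mul_le_mul_of_nonneg_left h5 ha
  linarith [Real.add_one_le_exp (a * stepConst)]

lemma le_exp_abs {a : ℝ} (ha : 0 ≤ a) :
    Real.exp (-(a * stepConst)) ≤ ∫ g, Real.exp (-a * |g|) ∂gaussianReal 0 1 := by
  have hi : Integrable (fun g : ℝ => |g|) (gaussianReal 0 1) :=
    (memLp_one_iff_integrable.1 (memLp_id_gaussianReal' 1 ENNReal.one_ne_top)).abs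
  set c := ∫ g, |g| ∂gaussianReal 0 1 with hc
  have hcJ : c ≤ stepConst := by
    refine (integral_mono hi (integrable_exp_abs 2) fun g => ?_).trans num_le_stepConst
    show |g| ≤ Real.exp (2 * |g|)
    linarith [Real.add_one_le_exp (2 * |g|), abs_nonneg g]
  refine (Real.exp_le_exp.2 (neg_le_neg (mul_le_mul_of_nonneg_left hcJ ha))).trans ?_
  have h := integral_mono (((integrable_const (1 + a * c)).fun_add (hi.const_mul (-a))).const_mul
    (Real.exp (-(a * c)))) (integrable_exp_abs (-a)) fun g => by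
      show Real.exp (-(a * c)) * (1 + a * c + -a * |g|) ≤ Real.exp (-a * |g|)
      rw [show -a * |g| = -(a * c) + (-a * |g| + a * c) by ring, Real.exp_add]
      refine mul_le_mul_of_nonneg_left ?_ (Real.exp_pos _).le
      linarith [Real.add_one_le_exp (-a * |g| + a * c)]
  rw [integral_const_mul, integral_add (integrable_const _) (hi.const_mul (-a)), integral_const,
    probReal_univ, one_smul, integral_const_mul, ← hc] at h
  linarith

variable {m e ε η c L : ℝ} {F F' T T' h : ℝ → ℝ}

lemma lip1_shift (hF : Lip1 F) (he : 0 ≤ e) (x g : ℝ) :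
    F x - Real.sqrt e * |g| ≤ F (x + Real.sqrt e * g) ∧
      F (x + Real.sqrt e * g) ≤ F x + Real.sqrt e * |g| := by
  have h1 := hF x (x + Real.sqrt e * g)
  have h2 := hF (x + Real.sqrt e * g) x
  rw [sub_add_cancel_left, abs_neg, abs_mul, abs_of_nonneg (Real.sqrt_nonneg e)] at h1
  rw [add_sub_cancel_left, abs_mul, abs_of_nonneg (Real.sqrt_nonneg e)] at h2
  exact ⟨by linarith, h2⟩

lemma den_bounds (hm : 0 ≤ m) (hF : Lip1 F) (he : 0 ≤ e) (x : ℝ) :
    Real.exp (m * F x) * ∫ g, Real.exp (-(m * Real.sqrt e) * |g|) ∂gaussianReal 0 1 ≤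
        den m e F x ∧
      den m e F x ≤
        Real.exp (m * F x) * ∫ g, Real.exp (m * Real.sqrt e * |g|) ∂gaussianReal 0 1 := by
  rw [← integral_const_mul, ← integral_const_mul]
  constructor
  · refine integral_mono ((integrable_exp_abs _).const_mul _) (integrable_den hm hF x) fun g => ?_
    show _ * Real.exp (-(m * Real.sqrt e) * |g|) ≤ _
    rw [← Real.exp_add, Real.exp_le_exp]
    linarith [mul_le_mul_of_nonneg_left (lip1_shift hF he x g).1 hm]
  · refine integral_mono (integrable_den hm hF x) ((integrable_exp_abs _).const_mul _) fun g => ?_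
    show _ ≤ _ * Real.exp (m * Real.sqrt e * |g|)
    rw [← Real.exp_add, Real.exp_le_exp]
    linarith [mul_le_mul_of_nonneg_left (lip1_shift hF he x g).2 hm]

/-- A small step moves the potential little, whatever the exponent. -/
lemma layer_near (hm : 0 < m) (hm1 : m ≤ 1) (hF : Lip1 F) (he : 0 ≤ e) (he1 : e ≤ 1) (x : ℝ) :
    |layer m e F x - F x| ≤ stepConst * Real.sqrt e := by
  have ha : 0 ≤ m * Real.sqrt e := mul_nonneg hm.le (Real.sqrt_nonneg _)
  have ha1 : m * Real.sqrt e ≤ 1 := mul_le_one₀ hm1 (Real.sqrt_nonneg _) (Real.sqrt_le_one.2 he1)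
  obtain ⟨h1, h2⟩ := den_bounds hm.le hF he x
  have h3 := (mul_le_mul_of_nonneg_left (le_exp_abs ha) (Real.exp_pos _).le).trans h1
  have h4 := h2.trans (mul_le_mul_of_nonneg_left (exp_abs_le ha ha1) (Real.exp_pos _).le)
  rw [← Real.exp_add, ← exp_layer hm hF, Real.exp_le_exp] at h3 h4
  rw [abs_le]
  constructor
  · exact le_of_mul_le_mul_left (by linarith) hm
  · exact le_of_mul_le_mul_left (by linarith) hm

/-- A small step moves a Lipschitz function little in mean. -/
lemma tilt_small (hm : 0 ≤ m) (hm1 : m ≤ 1) (hF : Lip1 F) (he : 0 ≤ e) (he1 : e ≤ 1) (hh : B1 h)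
    (hL : 0 ≤ L) (hlip : ∀ y z, h y ≤ h z + L * |y - z|) (x : ℝ) :
    tilt m e F h x ≤ h x + L * stepConst * Real.sqrt e := by
  have hs := Real.sqrt_nonneg e
  have ha1 : m * Real.sqrt e ≤ 1 := mul_le_one₀ hm1 hs (Real.sqrt_le_one.2 he1)
  have hD : Real.exp (m * F x) * ∫ g, Real.exp ((-1) * |g|) ∂gaussianReal 0 1 ≤ den m e F x := by
    refine le_trans (mul_le_mul_of_nonneg_left (integral_mono (integrable_exp_abs _)
      (integrable_exp_abs _) fun g => ?_) (Real.exp_pos _).le) (den_bounds hm hF he x).1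
    exact Real.exp_le_exp.2 (by nlinarith [abs_nonneg g])
  have hN : ∫ g, wfun m e F h x g ∂gaussianReal 0 1 ≤ h x * den m e F x +
      L * Real.sqrt e * (Real.exp (m * F x) * ∫ g, Real.exp (2 * |g|) ∂gaussianReal 0 1) := by
    rw [den, ← integral_const_mul, ← integral_const_mul, ← integral_const_mul,
      ← integral_add ((integrable_den hm hF x).const_mul _)
        (((integrable_exp_abs 2).const_mul _).const_mul _)]
    refine integral_mono (integrable_wfun hm hF hh x) (((integrable_den hm hF x).const_mul _).fun_add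
      (((integrable_exp_abs 2).const_mul _).const_mul _)) fun g => ?_
    set W := Real.exp (m * F (x + Real.sqrt e * g))
    have h1 : h (x + Real.sqrt e * g) ≤ h x + L * (Real.sqrt e * |g|) := by
      have := hlip (x + Real.sqrt e * g) x
      rwa [add_sub_cancel_left, abs_mul, abs_of_nonneg hs] at this
    have h2 : W ≤ Real.exp (m * F x) * Real.exp |g| := by
      rw [← Real.exp_add, Real.exp_le_exp]
      have := mul_le_mul_of_nonneg_left (lip1_shift hF he x g).2 hm
      have := mul_le_mul_of_nonneg_right ha1 (abs_nonneg g)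
      linarith
    have h3 : W * |g| ≤ Real.exp (m * F x) * Real.exp (2 * |g|) :=
      calc W * |g| ≤ Real.exp (m * F x) * Real.exp |g| * |g| :=
            mul_le_mul_of_nonneg_right h2 (abs_nonneg g)
        _ = Real.exp (m * F x) * (|g| * Real.exp |g|) := by ring
        _ ≤ _ := mul_le_mul_of_nonneg_left (abs_mul_exp_le g) (Real.exp_pos _).le
    show W * h (x + Real.sqrt e * g) ≤ h x * W + _
    calc W * h (x + Real.sqrt e * g) ≤ W * (h x + L * (Real.sqrt e * |g|)) :=
          mul_le_mul_of_nonneg_left h1 (Real.exp_pos _).le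
      _ = h x * W + L * Real.sqrt e * (W * |g|) := by ring
      _ ≤ _ := add_le_add le_rfl (mul_le_mul_of_nonneg_left h3 (mul_nonneg hL hs))
  rw [tilt_eq_div, div_le_iff₀ (den_pos hm hF x)]
  refine hN.trans ?_
  rw [add_mul]
  refine add_le_add le_rfl ?_
  calc L * Real.sqrt e * (Real.exp (m * F x) * ∫ g, Real.exp (2 * |g|) ∂gaussianReal 0 1)
      = L * stepConst * Real.sqrt e *
          (Real.exp (m * F x) * ∫ g, Real.exp ((-1) * |g|) ∂gaussianReal 0 1) := by
        have := denom_pos.ne'
        simp only [stepConst, neg_one_mul] at this ⊢; field_simp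
    _ ≤ _ := mul_le_mul_of_nonneg_left hD
        (mul_nonneg (mul_nonneg hL stepConst_nonneg) hs)

/-- A step from a moved potential: the weighted bound passes to the smaller exponent. -/
lemma step_near {δ μ : ℝ} (hμ : 0 ≤ μ) (hμm : μ ≤ m) (hm : 0 < m) (hF : Lip1 F) (hF' : Lip1 F')
    (hT : B1 T) (hT0 : ∀ y, 0 ≤ T y) (hη : 0 ≤ η) (hT' : B1 T') (hε : ∀ y, |F' y - F y| ≤ ε)
    (hW : ∀ y, Real.exp (m * F' y) * T' y ≤
      Real.exp (c * ε) * (Real.exp (m * F y) * (T y + η))) (x : ℝ) :
    |layer m δ F' x - layer m δ F x| ≤ ε ∧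
      Real.exp (μ * layer m δ F' x) * tilt m δ F' T' x ≤
        Real.exp ((c + m - μ) * ε) * (Real.exp (μ * layer m δ F x) * (tilt m δ F T x + η)) := by
  have hbound : ∀ {G G' : ℝ → ℝ}, Lip1 G → Lip1 G' → (∀ y, G' y ≤ G y + ε) →
      layer m δ G' x ≤ layer m δ G x + ε := fun {G G'} hG hG' h => by
    have h1 : den m δ G' x ≤ Real.exp (m * ε) * den m δ G x := by
      rw [den, den, ← integral_const_mul]
      refine integral_mono (integrable_den hm.le hG' x) ((integrable_den hm.le hG x).const_mul _)
        fun g => ?_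
      show _ ≤ Real.exp (m * ε) * _
      rw [← Real.exp_add, Real.exp_le_exp]
      linarith [mul_le_mul_of_nonneg_left (h (x + Real.sqrt δ * g)) hm.le]
    rw [← exp_layer hm hG', ← exp_layer hm hG, ← Real.exp_add, Real.exp_le_exp] at h1
    exact le_of_mul_le_mul_left (by linarith) hm
  have hG1 := hbound hF hF' fun y => by linarith [(abs_le.1 (hε y)).2]
  have hG2 := hbound hF' hF fun y => by linarith [(abs_le.1 (hε y)).1]
  refine ⟨abs_le.2 ⟨by linarith, by linarith⟩, ?_⟩
  have hnum : ∫ g, wfun m δ F' T' x g ∂gaussianReal 0 1 ≤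
      Real.exp (c * ε) * ((tilt m δ F T x + η) * den m δ F x) := by
    have he : (tilt m δ F T x + η) * den m δ F x =
        ∫ g, (wfun m δ F T x g + η * Real.exp (m * F (x + Real.sqrt δ * g))) ∂gaussianReal 0 1 := by
      rw [integral_add (integrable_wfun hm.le hF hT x) ((integrable_den hm.le hF x).const_mul η),
        integral_const_mul, tilt_eq_div, add_mul, div_mul_cancel₀ _ (den_pos hm.le hF x).ne']
      rfl
    rw [he, ← integral_const_mul]
    refine integral_mono (integrable_wfun hm.le hF' hT' x) (((integrable_wfun hm.le hF hT x).fun_add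
      ((integrable_den hm.le hF x).const_mul η)).const_mul _) fun g => ?_
    have := hW (x + Real.sqrt δ * g)
    simp only [wfun]
    linarith
  have htilt : tilt m δ F' T' x ≤ Real.exp (c * ε) * ((tilt m δ F T x + η) * den m δ F x) /
      den m δ F' x := by
    rw [tilt_eq_div (F := F')]
    exact div_le_div_of_nonneg_right hnum (den_pos hm.le hF' x).le
  have hA : 0 ≤ tilt m δ F T x + η := add_nonneg (tilt_nonneg hT0 x) hη
  refine (mul_le_mul_of_nonneg_left htilt (Real.exp_pos _).le).trans ?_
  rw [← exp_layer hm hF, ← exp_layer hm hF']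
  calc Real.exp (μ * layer m δ F' x) * (Real.exp (c * ε) * ((tilt m δ F T x + η) *
          Real.exp (m * layer m δ F x)) / Real.exp (m * layer m δ F' x))
      = Real.exp (μ * layer m δ F' x + c * ε + m * layer m δ F x - m * layer m δ F' x) *
          (tilt m δ F T x + η) := by
        rw [Real.exp_sub, Real.exp_add, Real.exp_add]; ring
    _ ≤ Real.exp ((c + m - μ) * ε + μ * layer m δ F x) * (tilt m δ F T x + η) := by
        refine mul_le_mul_of_nonneg_right (Real.exp_le_exp.2 ?_) hA
        nlinarith [mul_le_mul_of_nonneg_left hG2 (sub_nonneg.2 hμm)]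
    _ = _ := by rw [Real.exp_add]; ring

end Vale.Agent.P166.Haar2.SiteTaylor
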